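import Vale.Agent.P275MK.Cns
import Vale.Agent.P275B.Flat
import Vale.Agent.P275FL.Defs

/-!
P275 (helper22): constructions of flat bundles of varieties.
-/

set_option linter.all false

open scoped Manifold ContDiff Topology
open Set Filter Topology Function
open Vale.Agent.P272.K (Cm Chart At)
open Vale.Agent.P272.K.Prod (at_dec contDiff_glue)
open Vale.Agent.P277Z (Hol at_chart)
open Vale.Agent.P281Z Vale.Agent.P275RG Vale.Agent.P275MC Vale.Agent.P275MK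
open Vale.Agent.P281Z.Hg (Smo)
open Vale.Agent.P275KU (smo_fst smo_snd smo_pair)

noncomputable section

namespace Vale.Agent.P275MK.Tv

variable {ι ι' B B' T T' M M' : Type} [TopologicalSpace B] [TopologicalSpace T] [TopologicalSpace M]
  [TopologicalSpace B'] [TopologicalSpace T'] [TopologicalSpace M'] {V : ι → Set B}
  {V' : ι' → Set B'} {F : Tv V T M} {F' : Tv V' T' M'} {N N' b b' m m' : ℕ}
  [ChartedSpace (Cm b) B] [IsManifold 𝓘(ℂ, Cm b) ω B]
  [ChartedSpace (Cm m) M] [IsManifold 𝓘(ℂ, Cm m) ω M] [ChartedSpace (Cm b') B']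
  [IsManifold 𝓘(ℂ, Cm b') ω B'] [ChartedSpace (Cm m') M'] [IsManifold 𝓘(ℂ, Cm m') ω M']
  [ChartedSpace (Cm N) T] [ChartedSpace (Cm N') T'] {f : T' → T} {g : B' → B}
  {P : (M' → M) → Prop}

theorem smA_mk {p : T → B} {q : T → M} {z : T} (hp : SmA N b p z) (hq : SmA N m q z) :
    SmA N (b + m) (fun z => (p z, q z)) z :=
  ⟨hp.cont.prodMk hq.cont, fun c E hc hE => by
    obtain ⟨e, e', rfl, h1, h2⟩ := at_dec hE
    exact contDiff_glue (hp.sm c e hc h1) (hq.sm c e' hc h2)⟩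

theorem Sm.t (H : F.Sm N b m) {i j : ι} {x : B} (hi : x ∈ V i) (hj : x ∈ V j) :
    Smo m m (F.t i j) := by
  rw [funext (F.t_eq hi hj)]
  exact smo_of fun y => (H.q i _ ((F.ps j (x, y) hj).symm ▸ hi)).comp ((H.s j (x, y) hj).comp
    (f := fun y => (x, y)) (smA_of_hol ((holM_mk (holM_const x) holM_id).at y)))

theorem Lc.smo (h : F.Lc F' f g P) (H : F.Sm N b m) (H' : F'.Sm N' b' m') (hg : Smo b' b g)
    (hP : ∀ φ, P φ → Smo m' m φ) : Smo N' N f := smo_of fun z =>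
  let ⟨i', i, φ, a, b, c, d⟩ := h.eq hg.cont z
  (SmA.comp (g := F.s i) (f := fun w => (g (F'.p w), φ (F'.q i' w))) (H.s i _ b)
    (smA_mk ((smA_of hg _).comp (smA_of H'.p z)) ((smA_of (hP φ c) _).comp (H'.q i' z a)))).congr
    (d.mono fun _ => Eq.symm)

theorem Lc.oe [ChartedSpace (Cm b) B'] [IsManifold 𝓘(ℂ, Cm b) ω B'] [ChartedSpace (Cm m) M']
    [IsManifold 𝓘(ℂ, Cm m) ω M'] [ChartedSpace (Cm N) T'] (h : F.Lc F' f g P) (H : F.Sm N b m)
    (H' : F'.Sm N b m) (hg : OE b g) (hP : ∀ φ, P φ → OE m φ) : OE N f := by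
  refine ⟨h.smo H H' hg.smo fun φ k => (hP φ k).smo, h.inj hg.inj fun φ k => (hP φ k).inj,
    fun z => ?_⟩
  obtain ⟨i', i, φ, a, b, c, d⟩ := h.q (F'.p z)
  obtain ⟨γ, g1, g2, g3⟩ := hg.inv (F'.p z)
  obtain ⟨ψ, k1, k2, k3⟩ := (hP φ c).inv (F'.q i' z)
  have b' : F.p (f z) ∈ V i := (h.p z).symm ▸ b
  rw [← h.p] at g1 g2 g3
  rw [← d.self_of_nhds z rfl] at k1 k2 k3
  have l1 := g2.comp (smA_of H.p (f z))
  have l2 : Tendsto (fun w => γ (F.p w)) (𝓝 (f z)) (𝓝 (F'.p z)) := g1 ▸ l1.cont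
  refine ⟨fun w => F'.s i' (γ (F.p w), ψ (F.q i w)), by simp only [g1, k1, F'.spq _ _ a],
    SmA.comp (g := F'.s i') (f := fun w => (γ (F.p w), ψ (F.q i w))) (H'.s i' _ (g1.symm ▸ a))
      (smA_mk l1 (k2.comp (H.q i _ b'))), ?_⟩
  filter_upwards [l2.eventually d, l2.eventually ((F'.opn i').eventually_mem a), F.near b',
    F.cp.continuousAt.eventually g3, (F.cq i _ b').eventually k3] with w m1 m2 m3 m4 m5
  have m6 : F'.p _ = γ _ := F'.ps i' (_, ψ (F.q i w)) m2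
  refine (F.ext' m3 ?_ ?_).symm
  · rw [h.p, m6, m4]
  · rw [m1 _ m6, F'.qs i' (_, _) m2, m5]

open Classical in
/-- the smooth flat bundle -/
def fl (H : F.Sm N b m) : P275FL.Fl N b m T B M where
  ι := ι
  V := V
  p := F.p
  q := F.q
  s := F.s
  t i j := if (V j ∩ V i).Nonempty then F.t j i else id
  opn := F.opn
  cov := F.cov
  smp := H.p
  smq := H.q
  sms := H.s
  smt i j := by
    split_ifs with h
    exacts [H.t h.choose_spec.1 h.choose_spec.2, P281Z.Hg.Pb1H.smo_id]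
  prt i j := by
    split_ifs with h
    exacts [F.t_proper h.choose_spec.1 h.choose_spec.2, isProperMap_id]
  spq := F.spq
  ps := F.ps
  qs := F.qs
  tr i j z hi hj := by rw [if_pos ⟨_, hj, hi⟩, F.tr j i z hj hi]

theorem fl_t (H : F.Sm N b m) {i j : ι} (h : (V j ∩ V i).Nonempty) : (fl H).t i j = F.t j i :=
  if_pos h

/-- the topological data of a smooth flat bundle -/
def ofFl (G : P275FL.Fl N b m T B M) : Tv G.V T M where
  p := G.p
  q := G.q
  s := G.s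
  t i j := G.t j i
  opn := G.opn
  cov := G.cov
  cp := G.smp.cont
  cq i z h := (G.smq i z h).cont
  cs i y h := (G.sms i y h).cont
  spq := G.spq
  ps := G.ps
  qs := G.qs
  tr i j z hi hj := G.tr j i z hj hi

theorem ofFl_sm (G : P275FL.Fl N b m T B M) : (ofFl G).Sm N b m := ⟨G.smp, G.smq, G.sms⟩

end Vale.Agent.P275MK.Tv

namespace Vale.Agent.P275B

variable {b b' d d' e D D' : ℕ} {B : Mn b} {B' : Mn b'} {c : Cv B} {c' : Cv B'} {M : Vr d}
  {M' : Vr d'}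

/-- the product of two varieties -/
def Vr.prod (M : Vr d) (X : Vr e) : Vr (d + e) :=
  { toMn := M.toMn.prod X.toMn, cp := M.cp.prod X.cp }

/-- an open part -/
def Mn.opens (T : Mn d) (O : TopologicalSpace.Opens T.X) : Mn d := { X := O }

/-- the point -/
def pt : Mn 0 := { X := Cm 0 }

/-- the cover with one element -/
def Cv.one (B : Mn b) : Cv B := ⟨Unit, fun _ => univ, fun _ => isOpen_univ, fun _ => ⟨(), trivial⟩⟩

/-- the pull-back of a cover -/
def Cv.pre (c : Cv B) {g : B'.X → B.X} (hg : Continuous g) : Cv B' :=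
  ⟨c.ι, fun i => g ⁻¹' c.V i, fun i => (c.opn i).preimage hg, fun x => c.cov (g x)⟩

/-- a compact curve with an atlas of discs -/
def crv {C : Type} [TopologicalSpace C] [T2Space C] [CompactSpace C] (A : P275GC.At C) : Mn 1 :=
  letI := csA A
  haveI := ChartedSpace.secondCountable_of_sigmaCompact (Cm 1) C
  { X := C, mf := mfA A }

namespace Fl

/-- the topological data -/
def tv (F : Fl c M D) : Tv c.V F.T.X M.X where
  p := F.q
  q := F.φ
  s := F.ψ
  t := F.tr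
  opn := c.opn
  cov := c.cov
  cp := F.hq.cont
  cq i z h := (F.hφ i z h).cont
  cs i y h := (F.hψ i y h).cont
  spq := F.ψφ
  ps := F.qψ
  qs := F.φψ
  tr := F.φtr

theorem ho (F : Fl c M D) : F.tv.Ho D b d := ⟨F.hq, F.hφ, F.hψ⟩

/-- the smooth flat bundle -/
def fl (F : Fl c M D) : P275FL.Fl D b d F.T.X B.X M.X := Tv.fl F.ho.sm

theorem fl_t (F : Fl c M D) {i j : c.ι} (h : (c.V j ∩ c.V i).Nonempty) : F.fl.t i j = F.tr j i :=
  Tv.fl_t _ h

theorem fl_alg (F : Fl c M D) (i j : c.ι) : Alg M.cp M.cp (F.fl.t i j) := by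
  by_cases h : (c.V j ∩ c.V i).Nonempty
  · exact F.fl_t h ▸ F.alg j i h
  · rw [show F.fl.t i j = fun x => x from if_neg h]
    exact .id _

/-- from holomorphic trivialisations of a manifold -/
def ofHo (T : Mn D) (dim : D = b + d) (G : Tv c.V T.X M.X) (H : G.Ho D b d)
    (alg : ∀ i j, (c.V i ∩ c.V j).Nonempty → Alg M.cp M.cp (G.t i j)) : Fl c M D :=
  ⟨T, dim, G.p, G.q, G.s, G.t, H.p, H.q, H.s, G.ps, G.qs, G.spq, alg, G.tr⟩

/-- from topological trivialisations of a space -/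
def ofTv {T : Type} [TopologicalSpace T] (G : Tv c.V T M.X)
    (alg : ∀ i j, (c.V i ∩ c.V j).Nonempty → Alg M.cp M.cp (G.t i j)) : Fl c M (b + d) :=
  have ht := fun i j h => (alg i j h).hol
  ofHo { X := T, t2 := G.t2, sc := G.sc, ch := G.ch b ht, mf := G.mf b ht } rfl G (G.ho b ht) alg

variable (c M) in
/-- the product bundle -/
def triv : Fl c M (b + d) :=
  ofHo (B.prod M.toMn) rfl (.triv M.X c.opn c.cov) (Tv.triv_ho _ _) fun _ _ _ => .id _

variable (M) in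
/-- the bundle over a point -/
def point : Fl (.one pt) M d :=
  ofHo M.toMn (Nat.zero_add d).symm (.point M.X) Tv.point_ho fun _ _ _ => .id _

/-- the product with a fixed variety -/
def prodV (F : Fl c M D) (X : Vr e) : Fl c (M.prod X) (D + e) :=
  ofHo (F.T.prod X.toMn) (by rw [F.dim, add_assoc]) (F.tv.prodV X.X) F.ho.prodV
    fun i j h => ((F.alg i j h).comp .fst).pair .snd

/-- refinement of the cover -/
def ref (F : Fl c M D) {c₁ : Cv B} (r : c₁.ι → c.ι) (h : ∀ a, c₁.V a ⊆ c.V (r a)) : Fl c₁ M D :=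
  ofHo F.T F.dim (F.tv.ref r c₁.opn c₁.cov h) (F.ho.ref r _ _ h)
    fun i j k => F.alg _ _ (k.mono (inter_subset_inter (h i) (h j)))

/-- the pull-back along a continuous map of the bases -/
def pb (F : Fl c M D) {g : B'.X → B.X} (hg : Continuous g) (r : c'.ι → c.ι)
    (h : ∀ a, ∀ x ∈ c'.V a, g x ∈ c.V (r a)) : Fl c' M (b' + d) :=
  ofTv (F.tv.ind_pb hg c'.opn c'.cov h).tv
    fun i j ⟨x, k⟩ => F.alg _ _ ⟨g x, h i x k.1, h j x k.2⟩

/-- the part over an open set -/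
abbrev ovr (F : Fl c M D) (O : TopologicalSpace.Opens B.X) : TopologicalSpace.Opens F.T.X :=
  ⟨F.q ⁻¹' O, O.2.preimage F.hq.cont⟩

theorem ind_res (F : Fl c M D) (O : TopologicalSpace.Opens B.X) :
    F.tv.Ind (T' := (F.T.opens (F.ovr O)).X) (c.pre (B' := B.opens O) continuous_subtype_val).V
      Subtype.val id (fun _ y => y) F.tr (fun w => ⟨F.q w.1, w.2⟩) Subtype.val := F.tv.ind_res O

/-- the restriction to an open part of the base -/
def res (F : Fl c M D) (O : TopologicalSpace.Opens B.X) :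
    Fl (c.pre (B' := B.opens O) continuous_subtype_val) M D :=
  have h := opens_emb (n := D) (F.ovr O)
  have k := opens_emb (n := b) O
  have l : HolM D b fun w : F.ovr O => (⟨F.q w, w.2⟩ : O) :=
    fun w => emb_lift k.hol k.imm .subtypeVal ((F.hq.comp h.hol).at w)
  ofHo (F.T.opens (F.ovr O)) F.dim (F.ind_res O).tv
    (F.ho.ind (F.ind_res O) k.hol (fun _ _ => ⟨holM_id, imm_id⟩) l h.hol
      fun w => imm_mk_right (h.imm w) (l.at w) (h.hol.at w))
    fun i j ⟨x, k⟩ => F.alg _ _ ⟨x.1, k⟩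

theorem alg_sub (F : Fl c M D) {e : c.ι → M'.X → M.X} {t' : c.ι → c.ι → M'.X → M'.X}
    (he : ∀ a, (c.V a).Nonempty → Alg M'.cp M.cp (e a) ∧ IsEmbedding (e a) ∧ ∀ y, Imm d' d (e a) y)
    (ht : ∀ a a', (c.V a ∩ c.V a').Nonempty → ∀ y, e a (t' a a' y) = F.tr a a' (e a' y)) (a a')
    (h : (c.V a ∩ c.V a').Nonempty) : Alg M'.cp M'.cp (t' a a') :=
  let ⟨h1, h2, h3⟩ := he a h.left
  h1.lift h2.isInducing h3 ((funext (ht a a' h)).symm ▸ (F.alg a a' h).comp (he a' h.right).1)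

/-- an invariant subvariety of the fibre; `j` is the inclusion of the total space -/
def sub (F : Fl c M D) {e : c.ι → M'.X → M.X} {t' : c.ι → c.ι → M'.X → M'.X}
    (he : ∀ a, (c.V a).Nonempty → Alg M'.cp M.cp (e a) ∧ IsEmbedding (e a) ∧ ∀ y, Imm d' d (e a) y)
    (ht : ∀ a a', (c.V a ∩ c.V a').Nonempty → ∀ y, e a (t' a a' y) = F.tr a a' (e a' y))
    {T' : Type} [TopologicalSpace T'] {j : T' → F.T.X} (hj : IsEmbedding j)
    (hr : ∀ z, z ∈ range j ↔ ∀ a, F.q z ∈ c.V a → F.φ a z ∈ range (e a)) : Fl c M' (b + d') :=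
  ofTv (F.tv.ind_sub (fun a h => (he a h).2.1) ht hj hr).tv (F.alg_sub he ht)

theorem hm_pb (F : Fl c M D) {g : B'.X → B.X} (hg : HolM b' b g) (r : c'.ι → c.ι) (h) :
    Hm g r (F.pb hg.cont r h) F (fun _ y => y) fun w => w.1.2 :=
  ⟨hg, h, fun _ => .id _, fun w => w.2,
    fun _ _ k => ((F.tv.ind_pb hg.cont c'.opn c'.cov h).q_eq k).symm⟩

theorem hm_res (F : Fl c M D) (O : TopologicalSpace.Opens B.X) :
    Hm (c' := c.pre (B' := B.opens O) continuous_subtype_val) (c := c) Subtype.val (fun i => i)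
      (F.res O) F (fun _ y => y) Subtype.val :=
  ⟨(opens_emb O).hol, fun _ _ h => h, fun _ => .id _, fun _ => rfl,
    fun _ _ k => ((F.ind_res O).q_eq k).symm⟩

theorem hm_ref (F : Fl c M D) {c₁ : Cv B} (r : c₁.ι → c.ι) (h : ∀ a, c₁.V a ⊆ c.V (r a)) :
    Hm id r (F.ref r h) F (fun _ y => y) fun z => z :=
  ⟨holM_id, h, fun _ => .id _, fun _ => rfl, fun _ _ _ => rfl⟩

theorem hm_sub (F : Fl c M D) {e : c.ι → M'.X → M.X} {t' he ht} {T' : Type} [TopologicalSpace T']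
    {j : T' → F.T.X} (hj hr) (h : ∀ a, Alg M'.cp M.cp (e a)) :
    Hm0 (F.sub (e := e) (t' := t') (j := j) he ht hj hr) F e j :=
  ⟨holM_id, fun _ _ h => h, h, fun _ => rfl,
    fun _ _ k => ((F.tv.ind_sub (fun a h => (he a h).2.1) ht hj hr).q_eq k).symm⟩

theorem hm_fst (F : Fl c M D) (X : Vr e) : Hm0 (F.prodV X) F (fun _ => Prod.fst) Prod.fst :=
  ⟨holM_id, fun _ _ h => h, fun _ => .fst, fun _ => rfl, fun _ _ _ => rfl⟩

theorem inv_snd (F : Fl c M D) (X : Vr e) : (F.prodV X).Inv (fun _ => Prod.snd) Prod.snd :=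
  fun _ _ _ => rfl

/-- equivariant algebraic maps of the fibres give maps of flat bundles -/
theorem ex_hm (F' : Fl c' M' D') (F : Fl c M D) {β : B'.X → B.X} {r : c'.ι → c.ι}
    (hβ : HolM b' b β) (sub : ∀ i, ∀ x ∈ c'.V i, β x ∈ c.V (r i)) {f : c'.ι → M'.X → M.X}
    (alg : ∀ i, Alg M'.cp M.cp (f i)) (h : ∀ i j, (c'.V i ∩ c'.V j).Nonempty → ∀ y,
      f i (F'.tr i j y) = F.tr (r i) (r j) (f j y)) : ∃ t, Hm β r F' F f t :=
  let ⟨t, h1, h2⟩ := F.tv.ex_map F'.tv sub h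
  ⟨t, hβ, sub, alg, h1, h2⟩

theorem ex_inv (F : Fl c M D) {Y : Type} {k₀ : c.ι → M.X → Y}
    (h : ∀ i j, (c.V i ∩ c.V j).Nonempty → ∀ y, k₀ i (F.tr i j y) = k₀ j y) : ∃ k, F.Inv k₀ k :=
  F.tv.ex_inv h

variable {F : Fl c M D} {Y : Type} [TopologicalSpace Y] {k₀ : c.ι → M.X → Y} {k : F.T.X → Y}

theorem Inv.cont (h : F.Inv k₀ k) (hk : ∀ i, Continuous (k₀ i)) : Continuous k :=
  F.tv.cont_inv h fun i _ => hk i

theorem Inv.hol [ChartedSpace (Cm e) Y] [IsManifold 𝓘(ℂ, Cm e) ω Y] (h : F.Inv k₀ k)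
    (hk : ∀ i, HolM d e (k₀ i)) : HolM D e k := F.ho.hol_inv h fun i _ => hk i

theorem Inv.lc (h : F.Inv k₀ k) {P : (M.X → Y) → Prop} (hk : ∀ i, P (k₀ i)) :
    (Tv.triv Y c.opn c.cov).Lc F.tv (fun z => (F.q z, k z)) id P :=
  F.tv.lc_inv h fun i _ => hk i

theorem Inv.proper [CompactSpace B.X] (h : F.Inv k₀ k) (hk : ∀ i, IsProperMap (k₀ i)) :
    IsProperMap k :=
  isProperMap_snd_of_compactSpace.comp ((h.lc hk).proper isProperMap_id fun _ h => h)

end Fl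

namespace Hm

variable {β : B'.X → B.X} {r : c'.ι → c.ι} {F' : Fl c' M' D'} {F : Fl c M D}
  {f : c'.ι → M'.X → M.X} {t : F'.T.X → F.T.X} (h : Hm β r F' F f t)
include h

theorem lc {P : (M'.X → M.X) → Prop} (hP : ∀ i, P (f i)) : F.tv.Lc F'.tv t β P :=
  .of_map r f h.qt h.sub (fun i _ => hP i) h.φt

theorem hol : HolM D' D t := (h.lc fun i => (h.alg i).hol).hol F.ho F'.ho h.hβ fun _ k => k

theorem smo : Smo D' D t := smo_of_hol h.hol

theorem proper (hβ : IsProperMap β) (hf : ∀ i, IsProperMap (f i)) : IsProperMap t :=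
  (h.lc hf).proper hβ fun _ k => k

theorem inj (hβ : Injective β) (hf : ∀ i, Injective (f i)) : Injective t :=
  (h.lc hf).inj hβ fun _ k => k

theorem onto (hβ : Surjective β) (hf : ∀ i, Surjective (f i)) : Surjective t :=
  (h.lc hf).onto hβ fun _ k => k

theorem isEmb (hβ : IsEmbedding β) (hf : ∀ i, IsEmbedding (f i)) : IsEmbedding t :=
  (h.lc hf).emb hβ fun _ k => k

theorem cemb (hβ : IsClosedEmbedding β) (hf : ∀ i, IsClosedEmbedding (f i)) :
    IsClosedEmbedding t := (h.lc hf).cemb hβ fun _ k => k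

theorem isOpenMap (hβ : IsOpenMap β) (hf : ∀ i, IsOpenMap (f i)) : IsOpenMap t :=
  (h.lc hf).isOpenMap h.hβ.cont hβ fun _ k => k

theorem imm (hβ : ∀ x, Imm b' b β x) (hf : ∀ i y, Imm d' d (f i) y) (z : F'.T.X) : Imm D' D t z :=
  (h.lc fun i => And.intro (h.alg i).hol (hf i)).imm F.ho F'.ho h.hβ hβ (fun _ k => k) z

theorem emb {S : Set B.X} (hβ : Emb b' b β S) {Z : c'.ι → Set M.X} (hf : ∀ i, Emb d' d (f i) (Z i)) :
    Emb D' D t (range t) :=
  ⟨h.hol, h.inj hβ.inj fun i => (hf i).inj, h.imm hβ.imm fun i => (hf i).imm, rfl⟩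

theorem mem_range {z : F.T.X} :
    z ∈ range t ↔ ∃ i, ∃ x ∈ c'.V i, β x = F.q z ∧ F.φ (r i) z ∈ range (f i) :=
  F.tv.mem_range F'.tv h.qt h.sub h.φt

theorem comp {b₂ d₂ D₂ : ℕ} {B₂ : Mn b₂} {c₂ : Cv B₂} {M₂ : Vr d₂} {F₂ : Fl c₂ M₂ D₂} {β' r' f' t'}
    (h' : Hm β' r' F₂ F' f' t') : Hm (fun x => β (β' x)) (fun i => r (r' i)) F₂ F
      (fun i y => f (r' i) (f' i y)) fun z => t (t' z) :=
  ⟨h.hβ.comp h'.hβ, fun i x k => h.sub _ _ (h'.sub i x k), fun i => (h.alg _).comp (h'.alg i),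
    fun z => by rw [h.qt, h'.qt], fun i z k => by
      rw [h.φt _ _ ((h'.qt z).symm ▸ h'.sub i _ k), h'.φt i z k]⟩

theorem inv {Y : Type} {k₀ : c.ι → M.X → Y} {k : F.T.X → Y} (hk : F.Inv k₀ k) :
    F'.Inv (fun i y => k₀ (r i) (f i y)) fun z => k (t z) := fun i z a =>
  (hk (r i) _ ((h.qt z).symm ▸ h.sub i _ a)).trans (congrArg _ (h.φt i z a))

end Hm

theorem flex : FLEX := fun _ _ _ c _ _ h =>
  ⟨.ofTv (.flex c.opn c.cov (fun i j k => (h.alg i j k).cont) h.one h.mul) h.alg, rfl⟩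

end Vale.Agent.P275B
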