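import Vale.Agent.P275MK.Tv

/-!
P275 (helper22): constructions of bundles with constant transitions.
-/

set_option linter.all false

open scoped Manifold ContDiff Topology
open Set Filter Topology Function
open Vale.Agent.P272.K (Cm Chart At)
open Vale.Agent.P277Z (Hol at_chart)
open Vale.Agent.P281Z Vale.Agent.P275RG Vale.Agent.P275MC

noncomputable section

namespace Vale.Agent.P275MK

variable {ι ι' B B' T T' M M' : Type} [TopologicalSpace B] [TopologicalSpace T] [TopologicalSpace M]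
  [TopologicalSpace B'] [TopologicalSpace T'] [TopologicalSpace M'] {V : ι → Set B}
  {V' : ι' → Set B'}

open Classical in
/-- an index of the cover at `x`, equal to `i` if possible -/
def ix (cov : ∀ x, ∃ i, x ∈ V i) (i : ι) (x : B) : ι := if x ∈ V i then i else (cov x).choose

theorem ix_mem (cov : ∀ x, ∃ i, x ∈ V i) (i : ι) (x : B) : x ∈ V (ix cov i x) := by
  unfold ix
  split_ifs with h
  exacts [h, (cov x).choose_spec]

theorem ix_eq (cov : ∀ x, ∃ i, x ∈ V i) {i : ι} {x : B} (h : x ∈ V i) : ix cov i x = i := if_pos h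

namespace Tv

/-- from trivialisations -/
def ofTriv {p : T → B} (e : ι → Bundle.Trivialization M p) (cov : ∀ x, ∃ i, x ∈ (e i).baseSet)
    (t : ι → ι → M → M) (tr : ∀ i j z, p z ∈ (e i).baseSet → p z ∈ (e j).baseSet →
      (e i z).2 = t i j (e j z).2) : Tv (fun i => (e i).baseSet) T M where
  p := p
  q i z := (e i z).2
  s i := (e i).toOpenPartialHomeomorph.symm
  t := t
  opn i := (e i).open_baseSet
  cov := cov
  cp := continuous_iff_continuousAt.2 fun z => (cov (p z)).elim fun i h =>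
    (e i).continuousAt_proj ((e i).mem_source.2 h)
  cq i z h := ((e i).continuousAt ((e i).mem_source.2 h)).snd
  cs i y h := (e i).continuousAt_symm ((e i).mem_target.2 h)
  spq i z h := (e i).symm_apply_mk_proj ((e i).mem_source.2 h)
  ps i y h := (e i).proj_symm_apply ((e i).mem_target.2 h)
  qs i y h := congrArg Prod.snd ((e i).apply_symm_apply ((e i).mem_target.2 h))
  tr := tr

section homeo

variable (opn : ∀ i, IsOpen (V i)) (cov : ∀ x, ∃ i, x ∈ V i)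

/-- from homeomorphisms over the sets of the cover -/
def ofHomeo {p : T → B} (hp : Continuous p) (Ψ : ∀ i, {z // p z ∈ V i} ≃ₜ V i × M)
    (h : ∀ i z, ((Ψ i z).1 : B) = p z) (t : ι → ι → M → M)
    (tr : ∀ i j z hi hj, (Ψ i ⟨z, hi⟩).2 = t i j (Ψ j ⟨z, hj⟩).2) : Tv V T M :=
  let q : ι → T → M := fun i z => (Ψ _ ⟨z, ix_mem cov i (p z)⟩).2
  let s : ι → B × M → T := fun i y => (Ψ _).symm (⟨y.1, ix_mem cov i y.1⟩, y.2)
  have e1 : ∀ i j z hi hj, i = j → (Ψ i ⟨z, hi⟩).2 = (Ψ j ⟨z, hj⟩).2 := by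
    rintro i _ z hi hj rfl
    rfl
  have e2 : ∀ i j x y hi hj, i = j → ((Ψ i).symm (⟨x, hi⟩, y) : T) = (Ψ j).symm (⟨x, hj⟩, y) := by
    rintro i _ x y hi hj rfl
    rfl
  have hq : ∀ i z hi, q i z = (Ψ i ⟨z, hi⟩).2 := fun i z hi => e1 _ _ _ _ _ (ix_eq cov hi)
  have hs : ∀ i y hi, s i y = (Ψ i).symm (⟨y.1, hi⟩, y.2) := fun i y hi =>
    e2 _ _ _ _ _ _ (ix_eq cov hi)
  have ps : ∀ i y, y.1 ∈ V i → p (s i y) = y.1 := fun i y hi => by
    rw [hs i y hi, ← h, Homeomorph.apply_symm_apply]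
  { p := p, q := q, s := s, t := t, opn := opn, cov := cov, cp := hp, ps := ps
    cq := fun i z hi => (((opn i).preimage hp).isOpenEmbedding_subtypeVal.continuousAt_iff
      (x := ⟨z, hi⟩)).1 ((Ψ i).continuous.snd.congr fun w => (hq i w w.2).symm).continuousAt
    cs := fun i y hi => (((opn i).isOpenEmbedding_subtypeVal.prodMap .id).continuousAt_iff
      (x := (⟨y.1, hi⟩, y.2))).1 ((continuous_subtype_val.comp (Ψ i).symm.continuous).congr
        fun w => (hs i (w.1, w.2) w.1.2).symm).continuousAt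
    spq := fun i z hi => by
      rw [hs i (_, _) hi, hq i z hi, show ((⟨p z, hi⟩, _) : V i × M) = Ψ i ⟨z, hi⟩ from
        Prod.ext (Subtype.ext (h i ⟨z, hi⟩).symm) rfl, Homeomorph.symm_apply_apply]
    qs := fun i y hi => by
      rw [hq i _ ((ps i y hi).symm ▸ hi)]
      simp only [hs i y hi, Subtype.coe_eta, Homeomorph.apply_symm_apply]
    tr := fun i j z hi hj => by rw [hq i z hi, hq j z hj, tr] }

theorem ofHomeo_q {p : T → B} {hp : Continuous p} {Ψ : ∀ i, {z // p z ∈ V i} ≃ₜ V i × M} {h t tr}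
    {i : ι} {z : T} (hi : p z ∈ V i) :
    (ofHomeo opn cov hp Ψ h t tr).q i z = (Ψ i ⟨z, hi⟩).2 := by
  have e1 : ∀ i j z hi hj, i = j → (Ψ i ⟨z, hi⟩).2 = (Ψ j ⟨z, hj⟩).2 := by
    rintro i _ z hi hj rfl
    rfl
  exact e1 _ _ _ (ix_mem cov i (p z)) _ (ix_eq cov hi)

variable {t : ι → ι → M → M} (hc : ∀ i j, (V i ∩ V j).Nonempty → Continuous (t i j))
  (one : ∀ i, (V i).Nonempty → ∀ y, t i i y = y)
  (mul : ∀ i j k, (V i ∩ V j ∩ V k).Nonempty → ∀ y, t i j (t j k y) = t i k y)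

/-- the bundle of a cocycle -/
def core : FiberBundleCore ι B M where
  baseSet := V
  isOpen_baseSet := opn
  indexAt x := (cov x).choose
  mem_baseSet_at x := (cov x).choose_spec
  coordChange i j _ := t j i
  coordChange_self i x h := one i ⟨x, h⟩
  continuousOn_coordChange i j y h :=
    ((hc j i ⟨y.1, h.1.2, h.1.1⟩).comp continuous_snd).continuousAt.continuousWithinAt
  coordChange_comp i j k x h := mul k j i ⟨x, ⟨h.2, h.1.2⟩, h.1.1⟩

/-- the total space of a cocycle -/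
def flex : Tv V (core opn cov hc one mul).TotalSpace M :=
  ofTriv (core opn cov hc one mul).localTriv cov t fun i j z hi hj =>
    (mul i j _ ⟨z.1, ⟨hi, hj⟩, (cov z.1).choose_spec⟩ z.2).symm

variable (M) in
/-- the product bundle -/
def triv : Tv V (B × M) M where
  p := Prod.fst
  q _ := Prod.snd
  s _ y := y
  t _ _ y := y
  opn := opn
  cov := cov
  cp := continuous_fst
  cq _ _ _ := continuousAt_snd
  cs _ _ _ := continuousAt_id
  spq _ _ _ := rfl
  ps _ _ _ := rfl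
  qs _ _ _ := rfl
  tr _ _ _ _ _ := rfl

end homeo

variable (M) in
/-- the bundle over a point -/
def point : Tv (fun _ : Unit => (univ : Set (Cm 0))) M M where
  p _ := 0
  q _ y := y
  s _ := Prod.snd
  t _ _ y := y
  opn _ := isOpen_univ
  cov _ := ⟨(), trivial⟩
  cp := continuous_const
  cq _ _ _ := continuousAt_id
  cs _ _ _ := continuousAt_snd
  spq _ _ _ := rfl
  ps _ _ _ := Subsingleton.elim _ _
  qs _ _ _ := rfl
  tr _ _ _ _ _ := rfl

variable (F : Tv V T M) (F' : Tv V' T' M')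

/-- the product with a fixed space -/
def prodV (X : Type) [TopologicalSpace X] : Tv V (T × X) (M × X) where
  p z := F.p z.1
  q i z := (F.q i z.1, z.2)
  s i y := (F.s i (y.1, y.2.1), y.2.2)
  t i j y := (F.t i j y.1, y.2)
  opn := F.opn
  cov := F.cov
  cp := F.cp.comp continuous_fst
  cq i z h := ((F.cq i z.1 h).comp continuousAt_fst).prodMk continuousAt_snd
  cs i y h := ((F.cs i (y.1, y.2.1) h).comp (f := fun y : B × M × X => (y.1, y.2.1))
    (by fun_prop)).prodMk (by fun_prop)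
  spq i z h := Prod.ext (F.spq i z.1 h) rfl
  ps i y h := F.ps i (y.1, y.2.1) h
  qs i y h := Prod.ext (F.qs i (y.1, y.2.1) h) rfl
  tr i j z h h' := Prod.ext (F.tr i j z.1 h h') rfl

/-- the product of two bundles -/
def prod : Tv (fun a : ι × ι' => V a.1 ×ˢ V' a.2) (T × T') (M × M') where
  p z := (F.p z.1, F'.p z.2)
  q a z := (F.q a.1 z.1, F'.q a.2 z.2)
  s a y := (F.s a.1 (y.1.1, y.2.1), F'.s a.2 (y.1.2, y.2.2))
  t a a' y := (F.t a.1 a'.1 y.1, F'.t a.2 a'.2 y.2)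
  opn a := (F.opn a.1).prod (F'.opn a.2)
  cov x := let ⟨i, h⟩ := F.cov x.1; let ⟨j, k⟩ := F'.cov x.2; ⟨(i, j), h, k⟩
  cp := F.cp.prodMap F'.cp
  cq a z h := (F.cq a.1 z.1 h.1).prodMap (F'.cq a.2 z.2 h.2)
  cs a y h := ((F.cs a.1 (y.1.1, y.2.1) h.1).comp (f := fun y : (B × B') × M × M' => (y.1.1, y.2.1))
    (by fun_prop)).prodMk ((F'.cs a.2 (y.1.2, y.2.2) h.2).comp
      (f := fun y : (B × B') × M × M' => (y.1.2, y.2.2)) (by fun_prop))
  spq a z h := Prod.ext (F.spq _ z.1 h.1) (F'.spq _ z.2 h.2)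
  ps a y h := Prod.ext (F.ps _ (y.1.1, y.2.1) h.1) (F'.ps _ (y.1.2, y.2.2) h.2)
  qs a y h := Prod.ext (F.qs _ (y.1.1, y.2.1) h.1) (F'.qs _ (y.1.2, y.2.2) h.2)
  tr a a' z h h' := Prod.ext (F.tr _ _ z.1 h.1 h'.1) (F'.tr _ _ z.2 h.2 h'.2)

/-- refinement of the cover -/
def ref {W : ι' → Set B} (r : ι' → ι) (h1 : ∀ a, IsOpen (W a)) (h2 : ∀ x, ∃ a, x ∈ W a)
    (h3 : ∀ a, W a ⊆ V (r a)) : Tv W T M where
  p := F.p
  q a := F.q (r a)
  s a := F.s (r a)
  t a a' := F.t (r a) (r a')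
  opn := h1
  cov := h2
  cp := F.cp
  cq a z h := F.cq _ z (h3 a h)
  cs a y h := F.cs _ y (h3 a h)
  spq a z h := F.spq _ z (h3 a h)
  ps a y h := F.ps _ y (h3 a h)
  qs a y h := F.qs _ y (h3 a h)
  tr a a' z h h' := F.tr _ _ z (h3 a h) (h3 a' h')

variable (V') in
/-- `T'` is the part of the pull-back of `T` along `g` which is given in the chart `a` by the
subspace `e a : M' → M` of the fibre -/
structure Ind (g : B' → B) (r : ι' → ι) (e : ι' → M' → M) (t' : ι' → ι' → M' → M') (p' : T' → B')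
    (j : T' → T) : Prop where
  opn : ∀ a, IsOpen (V' a)
  cov : ∀ x, ∃ a, x ∈ V' a
  hg : Continuous g
  sub : ∀ a, ∀ x ∈ V' a, g x ∈ V (r a)
  he : ∀ a, (V' a).Nonempty → IsEmbedding (e a)
  ht : ∀ a a', (V' a ∩ V' a').Nonempty → ∀ y, e a (t' a a' y) = F.t (r a) (r a') (e a' y)
  hj : IsEmbedding fun w => (p' w, j w)
  pj : ∀ w, F.p (j w) = g (p' w)
  qj : ∀ a w, p' w ∈ V' a → ∃ y, e a y = F.q (r a) (j w)
  ex : ∀ a, ∀ x ∈ V' a, ∀ y, ∃ w, p' w = x ∧ j w = F.s (r a) (g x, e a y)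

namespace Ind

variable {F} {g : B' → B} {r : ι' → ι} {e : ι' → M' → M} {t' : ι' → ι' → M' → M'} {p' : T' → B'}
  {j : T' → T} (h : F.Ind V' g r e t' p' j) {a : ι'} {w : T'} {y : B' × M'}

/-- the fibre coordinate -/
def q (a : ι') (w : T') : M' := (h.qj _ w (ix_mem h.cov a (p' w))).choose

/-- the inverse of the trivialisation -/
def s (a : ι') (y : B' × M') : T' := (h.ex _ y.1 (ix_mem h.cov a y.1) y.2).choose

theorem q_eq (ha : p' w ∈ V' a) : e a (h.q a w) = F.q (r a) (j w) := by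
  have := (h.qj _ w (ix_mem h.cov a (p' w))).choose_spec
  unfold q
  generalize (h.qj _ w (ix_mem h.cov a (p' w))).choose = u at *
  rwa [ix_eq h.cov ha] at this

theorem ps (a : ι') (y : B' × M') : p' (h.s a y) = y.1 :=
  (h.ex _ y.1 (ix_mem h.cov a y.1) y.2).choose_spec.1

theorem s_eq (ha : y.1 ∈ V' a) : j (h.s a y) = F.s (r a) (g y.1, e a y.2) := by
  have := (h.ex _ y.1 (ix_mem h.cov a y.1) y.2).choose_spec.2
  unfold s
  generalize (h.ex _ y.1 (ix_mem h.cov a y.1) y.2).choose = u at *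
  rwa [ix_eq h.cov ha] at this

include h in
theorem cp : Continuous p' := h.hj.continuous.fst

include h in
theorem cj : Continuous j := h.hj.continuous.snd

include h in
theorem mem (ha : p' w ∈ V' a) : F.p (j w) ∈ V (r a) := (h.pj w).symm ▸ h.sub a _ ha

/-- the induced bundle -/
def tv : Tv V' T' M' where
  p := p'
  q := h.q
  s := h.s
  t := t'
  opn := h.opn
  cov := h.cov
  cp := h.cp
  cq a w ha := (h.he a ⟨_, ha⟩).isInducing.continuousAt_iff.2
    (((F.cq _ _ (h.mem ha)).comp h.cj.continuousAt).congr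
      ((h.cp.continuousAt.eventually ((h.opn a).eventually_mem ha)).mono fun _ k => (h.q_eq k).symm))
  cs a y ha := h.hj.isInducing.continuousAt_iff.2 ((continuousAt_fst.prodMk
    ((F.cs (r a) (g y.1, e a y.2) (h.sub a _ ha)).comp (f := fun y : B' × M' => (g y.1, e a y.2))
      (h.hg.prodMap (h.he a ⟨_, ha⟩).continuous).continuousAt)).congr
    ((continuousAt_fst.eventually ((h.opn a).eventually_mem ha)).mono fun u k =>
      Prod.ext (h.ps a u).symm (h.s_eq k).symm))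
  spq a w ha := h.hj.injective (Prod.ext (h.ps a _) (by
    simp only [h.s_eq (y := (p' w, h.q a w)) ha, h.q_eq ha, ← h.pj, F.spq _ _ (h.mem ha)]))
  ps a y _ := h.ps a y
  qs a y ha := (h.he a ⟨_, ha⟩).injective (by
    rw [h.q_eq ((h.ps a y).symm ▸ ha), h.s_eq ha, F.qs _ _ (h.sub a _ ha)])
  tr a a' w ha ha' := (h.he a ⟨_, ha⟩).injective (by
    rw [h.ht a a' ⟨_, ha, ha'⟩, h.q_eq ha, h.q_eq ha', F.tr _ _ _ (h.mem ha) (h.mem ha')])

theorem lc {P : (M' → M) → Prop} (hP : ∀ a, (V' a).Nonempty → P (e a)) : F.Lc h.tv j g P :=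
  .of_map r e h.pj h.sub hP fun _ _ k => (h.q_eq k).symm

end Ind

/-- the pull-back -/
theorem ind_pb {g : B' → B} (hg : Continuous g) {r : ι' → ι} (h1 : ∀ a, IsOpen (V' a))
    (h2 : ∀ x, ∃ a, x ∈ V' a) (h3 : ∀ a, ∀ x ∈ V' a, g x ∈ V (r a)) :
    F.Ind V' g r (fun _ y => y) (fun a a' => F.t (r a) (r a'))
      (fun w : {w : B' × T // F.p w.2 = g w.1} => w.1.1) fun w => w.1.2 :=
  ⟨h1, h2, hg, h3, fun _ _ => .id, fun _ _ _ _ => rfl, .subtypeVal, fun w => w.2,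
    fun _ _ _ => ⟨_, rfl⟩, fun a x hx y => ⟨⟨(x, _), F.ps _ (g x, y) (h3 a x hx)⟩, rfl, rfl⟩⟩

/-- the restriction to a subspace of the base -/
theorem ind_res (O : Set B) : F.Ind (fun i => (Subtype.val : O → B) ⁻¹' V i) Subtype.val id
    (fun _ y => y) F.t (fun w : F.p ⁻¹' O => ⟨F.p w, w.2⟩) Subtype.val :=
  ⟨fun i => (F.opn i).preimage continuous_subtype_val, fun x => F.cov x, continuous_subtype_val,
    fun _ _ h => h, fun _ _ => .id, fun _ _ _ _ => rfl, .of_comp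
      (((F.cp.comp continuous_subtype_val).subtype_mk _).prodMk continuous_subtype_val)
      continuous_snd .subtypeVal, fun _ => rfl, fun _ _ _ => ⟨_, rfl⟩, fun i x hx y =>
      ⟨⟨_, show F.p _ ∈ O from (F.ps i (x, y) hx).symm ▸ x.2⟩, Subtype.ext (F.ps i (x, y) hx), rfl⟩⟩

/-- an invariant subspace of the fibre -/
theorem ind_sub {e : ι → M' → M} {t' : ι → ι → M' → M'} (he : ∀ a, (V a).Nonempty → IsEmbedding (e a))
    (ht : ∀ a a', (V a ∩ V a').Nonempty → ∀ y, e a (t' a a' y) = F.t a a' (e a' y)) {j : T' → T}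
    (hj : IsEmbedding j) (hr : ∀ z, z ∈ range j ↔ ∀ a, F.p z ∈ V a → F.q a z ∈ range (e a)) :
    F.Ind V id id e t' (fun w => F.p (j w)) j :=
  ⟨F.opn, F.cov, continuous_id, fun _ _ h => h, he, ht,
    .of_comp ((F.cp.comp hj.continuous).prodMk hj.continuous) continuous_snd hj, fun _ => rfl,
    fun a w => (hr _).1 ⟨w, rfl⟩ a, fun a x hx y => by
      have h1 : F.p _ = x := F.ps a (x, e a y) hx
      obtain ⟨w, hw⟩ := (hr (F.s a (x, e a y))).2 fun a' k =>
        ⟨t' a' a y, (ht a' a ⟨x, h1 ▸ k, hx⟩ y).trans (F.t_eq (h1 ▸ k) hx _)⟩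
      exact ⟨w, hw ▸ h1, hw⟩⟩

/-- equivariant maps of the fibres give maps of the total spaces -/
theorem ex_map {g : B' → B} {r : ι' → ι} (h3 : ∀ a, ∀ x ∈ V' a, g x ∈ V (r a)) {φ : ι' → M' → M}
    (h : ∀ a a', (V' a ∩ V' a').Nonempty → ∀ y, φ a (F'.t a a' y) = F.t (r a) (r a') (φ a' y)) :
    ∃ f : T' → T, (∀ z, F.p (f z) = g (F'.p z)) ∧
      ∀ a z, F'.p z ∈ V' a → F.q (r a) (f z) = φ a (F'.q a z) := by
  choose k hk using F'.cov
  refine ⟨fun z => F.s (r (k (F'.p z))) (g (F'.p z), φ (k (F'.p z)) (F'.q (k (F'.p z)) z)),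
    fun z => F.ps _ (_, _) (h3 _ _ (hk _)), fun a z ha => ?_⟩
  rw [← F.t_eq (h3 _ _ ha) (h3 _ _ (hk _)), ← h a _ ⟨_, ha, hk _⟩, ← F'.tr _ _ z ha (hk _)]

theorem mem_range {f : T' → T} {g : B' → B} {r : ι' → ι} {φ : ι' → M' → M}
    (h1 : ∀ z, F.p (f z) = g (F'.p z)) (h3 : ∀ a, ∀ x ∈ V' a, g x ∈ V (r a))
    (h4 : ∀ a z, F'.p z ∈ V' a → F.q (r a) (f z) = φ a (F'.q a z)) {z : T} :
    z ∈ range f ↔ ∃ a, ∃ x ∈ V' a, g x = F.p z ∧ F.q (r a) z ∈ range (φ a) := by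
  refine ⟨?_, fun ⟨a, x, ha, e, y, e'⟩ => ⟨F'.s a (x, y), (F.ext' (e ▸ h3 a x ha) ?_ ?_).symm⟩⟩
  · rintro ⟨w, rfl⟩
    exact (F'.cov (F'.p w)).imp fun a ha => ⟨_, ha, (h1 w).symm, _, (h4 a w ha).symm⟩
  · rw [h1, F'.ps a (x, y) ha, e]
  · rw [h4 a _ ((F'.ps a (x, y) ha).symm ▸ ha), F'.qs a (x, y) ha, e']

/-- invariant maps from the fibre give maps from the total space -/
theorem ex_inv {Y : Type} {k : ι → M → Y}
    (h : ∀ a a', (V a ∩ V a').Nonempty → ∀ y, k a (F.t a a' y) = k a' y) :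
    ∃ f : T → Y, ∀ a z, F.p z ∈ V a → f z = k a (F.q a z) := by
  choose c hc using F.cov
  exact ⟨fun z => k (c (F.p z)) (F.q (c (F.p z)) z), fun a z ha => by
    rw [F.tr a _ z ha (hc _), h a _ ⟨_, ha, hc _⟩]⟩

theorem cont_inv {k : ι → M → T'} {f : T → T'} (h : ∀ a z, F.p z ∈ V a → f z = k a (F.q a z))
    (hk : ∀ a, (V a).Nonempty → Continuous (k a)) : Continuous f :=
  continuous_iff_continuousAt.2 fun z => let ⟨a, ha⟩ := F.cov (F.p z)
    ((hk a ⟨_, ha⟩).continuousAt.comp (F.cq a z ha)).congr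
      ((F.near ha).mono fun w e => (h a w e).symm)

/-- a map given by maps from the fibre is a map to the product bundle -/
theorem lc_inv {k : ι → M → M'} {f : T → M'} (h : ∀ a z, F.p z ∈ V a → f z = k a (F.q a z))
    {P : (M → M') → Prop} (hP : ∀ a, (V a).Nonempty → P (k a)) :
    (triv M' F.opn F.cov).Lc F (fun z => (F.p z, f z)) id P :=
  .of_map id k (fun _ => rfl) (fun _ _ h => h) hP h

section man

variable {N N' b b' m m' : ℕ} [ChartedSpace (Cm b) B] [IsManifold 𝓘(ℂ, Cm b) ω B]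
  [ChartedSpace (Cm m) M] [IsManifold 𝓘(ℂ, Cm m) ω M] [ChartedSpace (Cm b') B']
  [IsManifold 𝓘(ℂ, Cm b') ω B'] [ChartedSpace (Cm m') M'] [IsManifold 𝓘(ℂ, Cm m') ω M']

theorem triv_ho (opn : ∀ i, IsOpen (V i)) (cov : ∀ x, ∃ i, x ∈ V i) :
    (triv M opn cov).Ho (b + m) b m :=
  ⟨hol_fst, fun _ z _ => hol_snd.at z, fun _ y _ => holM_id.at y⟩

theorem point_ho : (point M).Ho m 0 m :=
  ⟨holM_const _, fun _ z _ => holM_id.at z, fun _ y _ => hol_snd.at y⟩

variable {F F'} [ChartedSpace (Cm N) T] [IsManifold 𝓘(ℂ, Cm N) ω T] [ChartedSpace (Cm N') T']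
  [IsManifold 𝓘(ℂ, Cm N') ω T'] (H : F.Ho N b m)
include H

theorem Ho.prodV : (F.prodV M').Ho (N + m') b (m + m') :=
  ⟨H.p.comp hol_fst, fun i z h => holA_mk ((H.q i z.1 h).cmp (hol_fst.at z)) (hol_snd.at z),
    fun i y h => holA_mk (HolA.cmp (f := fun y : B × M × M' => (y.1, y.2.1)) (H.s i _ h)
      ((holM_mk hol_fst (hol_fst.comp hol_snd)).at y)) ((hol_snd.comp hol_snd).at y)⟩

theorem Ho.prod (H' : F'.Ho N' b' m') : (F.prod F').Ho (N + N') (b + b') (m + m') :=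
  ⟨holM_mk (H.p.comp hol_fst) (H'.p.comp hol_snd), fun a z h =>
    holA_mk ((H.q _ z.1 h.1).cmp (hol_fst.at z)) ((H'.q _ z.2 h.2).cmp (hol_snd.at z)),
    fun a y h => holA_mk (HolA.cmp (f := fun y : (B × B') × M × M' => (y.1.1, y.2.1)) (H.s _ _ h.1)
      ((holM_mk (hol_fst.comp hol_fst) (hol_fst.comp hol_snd)).at y))
      (HolA.cmp (f := fun y : (B × B') × M × M' => (y.1.2, y.2.2)) (H'.s _ _ h.2)
        ((holM_mk (hol_snd.comp hol_fst) (hol_snd.comp hol_snd)).at y))⟩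

theorem Ho.ref {W : ι' → Set B} (r : ι' → ι) (h1 h2) (h3 : ∀ a, W a ⊆ V (r a)) :
    (F.ref r h1 h2 h3).Ho N b m :=
  ⟨H.p, fun a z h => H.q _ z (h3 a h), fun a y h => H.s _ y (h3 a h)⟩

theorem Ho.hol_inv {k : ι → M → T'} {f : T → T'} (h : ∀ a z, F.p z ∈ V a → f z = k a (F.q a z))
    (hk : ∀ a, (V a).Nonempty → HolM m N' (k a)) : HolM N N' f := fun z =>
  let ⟨a, ha⟩ := F.cov (F.p z)
  (((hk a ⟨_, ha⟩).at _).cmp (H.q a z ha)).cng ((F.near ha).mono fun w e => (h a w e).symm)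

/-- the induced bundle, when the total space is a complex submanifold -/
theorem Ho.ind {g : B' → B} {r : ι' → ι} {e : ι' → M' → M} {t' : ι' → ι' → M' → M'} {p' : T' → B'}
    {j : T' → T} (h : F.Ind V' g r e t' p' j) (hg : HolM b' b g)
    (he : ∀ a, (V' a).Nonempty → HolM m' m (e a) ∧ ∀ y, Imm m' m (e a) y) (hp : HolM N' b' p')
    (hj : HolM N' N j) (hi : ∀ w, Imm N' (b' + N) (fun w => (p' w, j w)) w) : h.tv.Ho N' b' m' :=
  ⟨hp, fun a w ha => emb_lift (he a ⟨_, ha⟩).1 (he a ⟨_, ha⟩).2 (h.he a ⟨_, ha⟩).isInducing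
      (((H.q _ _ (h.mem ha)).cmp (hj.at w)).cng ((h.tv.near ha).mono fun _ k => (h.q_eq k).symm)),
    fun a y ha => emb_lift (holM_mk hp hj) hi h.hj.isInducing ((holA_mk (hol_fst.at y)
      (HolA.cmp (f := fun y : B' × M' => (g y.1, e a y.2)) (H.s _ _ (h.sub a _ ha))
        ((holM_mk (hg.comp hol_fst) ((he a ⟨_, ha⟩).1.comp hol_snd)).at y))).cng
      ((h.tv.near' ha).mono fun u k => Prod.ext (h.ps a u).symm (h.s_eq k).symm))⟩

end man

end Tv

end Vale.Agent.P275MK
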