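import Vale.Agent.P275RG.Prin
import Vale.Agent.P275RG.Aff
import Vale.Agent.P275GC.Defs

/-!
P275 (helper22): complex structures from local homeomorphisms to a manifold.
-/

set_option linter.all false

open scoped Manifold ContDiff Topology
open Set Filter Topology Function
open Vale.Agent.P272.K (Cm Chart At)
open Vale.Agent.P277Z (Hol at_chart)
open Vale.Agent.P281Z Vale.Agent.P275RG

noncomputable section

namespace Vale.Agent.P275MK

variable {N : ℕ} {T P : Type} [TopologicalSpace T] [TopologicalSpace P] [ChartedSpace (Cm N) P]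

variable (N T P) in
/-- local homeomorphisms to a manifold with holomorphic transitions -/
structure Gl : Type 1 where
  ι : Type
  Φ : ι → OpenPartialHomeomorph T P
  cov : ∀ z, ∃ i, z ∈ (Φ i).source
  hol : ∀ i j z, z ∈ (Φ i).source → z ∈ (Φ j).source →
    HolA N N (fun y => Φ j ((Φ i).symm y)) (Φ i z)

namespace Gl

variable (G : Gl N T P)

/-- the complex structure -/
@[reducible] def cs : ChartedSpace (Cm N) T where
  atlas := {E | ∃ i, ∃ e ∈ atlas (Cm N) P, E = G.Φ i ≫ₕ e}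
  chartAt z := G.Φ (G.cov z).choose ≫ₕ chartAt (Cm N) (G.Φ (G.cov z).choose z)
  mem_chart_source z := ⟨(G.cov z).choose_spec, mem_chart_source _ _⟩
  chart_mem_atlas z := ⟨_, _, chart_mem_atlas _ _, rfl⟩

variable [IsManifold 𝓘(ℂ, Cm N) ω P]

theorem an {i j : G.ι} {e e' : Chart N P} {z : T} (hi : z ∈ (G.Φ i).source)
    (hj : z ∈ (G.Φ j).source) (he : At e (G.Φ i z)) (he' : At e' (G.Φ j z)) :
    AnalyticAt ℂ (fun w => e' (G.Φ j ((G.Φ i).symm (e.symm w)))) (e (G.Φ i z)) :=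
  (G.hol i j z hi hj).an he (((G.Φ i).left_inv hi).symm ▸ he')

theorem mf : @IsManifold ℂ _ (Cm N) _ _ (Cm N) _ 𝓘(ℂ, Cm N) ω T _ G.cs := by
  let := G.cs
  refine isManifold_of_contDiffOn 𝓘(ℂ, Cm N) ω T ?_
  rintro _ _ ⟨i, e, he, rfl⟩ ⟨j, e', he', rfl⟩ w hw
  have hw' : w ∈ ((G.Φ i ≫ₕ e).symm ≫ₕ (G.Φ j ≫ₕ e')).source := by simpa using hw.1
  have h1 := (G.Φ i ≫ₕ e).map_target hw'.1
  have h2 := G.an h1.1 hw'.2.1 ⟨he, h1.2⟩ ⟨he', hw'.2.2⟩
  rw [show e (G.Φ i _) = w from (G.Φ i ≫ₕ e).right_inv hw'.1] at h2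
  exact h2.contDiffAt.contDiffWithinAt

theorem holΦ {i : G.ι} {z : T} (hi : z ∈ (G.Φ i).source) :
    letI := G.cs; HolA N N (G.Φ i) z :=
  letI := G.cs
  haveI := G.mf
  .of_an ((G.Φ i).continuousAt hi) (at_chart z) (at_chart _)
    (G.an (e := chartAt (Cm N) _) (G.cov z).choose_spec hi (at_chart _) (at_chart _))

theorem hol_symm {i : G.ι} {y : P} (hi : y ∈ (G.Φ i).target) :
    letI := G.cs; HolA N N (G.Φ i).symm y := by
  letI := G.cs
  haveI := G.mf
  have h1 := (G.Φ i).map_target hi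
  have h2 := G.an (e := chartAt (Cm N) y) h1 (G.cov _).choose_spec
    (((G.Φ i).right_inv hi).symm ▸ at_chart y) (at_chart _)
  rw [(G.Φ i).right_inv hi] at h2
  exact .of_an ((G.Φ i).continuousAt_symm hi) (at_chart y) (at_chart _) h2

end Gl

/-- the coordinate of `Cm 1` -/
def c1 : ℂ ≃L[ℂ] Cm 1 := (ContinuousLinearEquiv.funUnique (Fin 1) ℂ ℂ).symm

theorem c1_apply (z : ℂ) (i : Fin 1) : c1 z i = z := rfl

theorem c1_symm (v : Cm 1) : c1.symm v = v 0 := rfl

/-- a family of charts to the plane -/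
abbrev Gl.ofC {C ι : Type} [TopologicalSpace C] (e : ι → OpenPartialHomeomorph C ℂ)
    (cov : ∀ x, ∃ i, x ∈ (e i).source) (hol : ∀ i j x, x ∈ (e i).source → x ∈ (e j).source →
      AnalyticAt ℂ (fun z => e j ((e i).symm z)) (e i x)) : Gl 1 C (Cm 1) where
  ι := ι
  Φ i := e i ≫ₕ c1.toHomeomorph.toOpenPartialHomeomorph
  cov x := (cov x).imp fun _ h => ⟨h, trivial⟩
  hol i j x hi hj := holA_iff.2 fun _ => hol_self.2
    (AnalyticAt.fun_comp (f := c1.symm) (x := c1 (e i x)) (hol i j x hi.1 hj.1)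
      (c1.symm.analyticAt _))

section curve

variable {C : Type} [TopologicalSpace C] (A : P275GC.At C)

theorem at_an {i j : Fin A.N} {x : C} (hi : x ∈ (A.e i).source) (hj : x ∈ (A.e j).source) :
    AnalyticAt ℂ (fun z => A.e j ((A.e i).symm z)) (A.e i x) := by
  refine (A.hol i j).analyticAt (inter_mem (A.tgt i ▸ (A.e i).open_target.mem_nhds
    ((A.e i).map_source hi)) (((A.e i).continuousAt_symm ((A.e i).map_source hi)).preimage_mem_nhds ?_))
  rw [(A.e i).left_inv hi]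
  exact (A.e j).open_source.mem_nhds hj

/-- the curve -/
abbrev glA : Gl 1 C (Cm 1) :=
  .ofC A.e (fun x => (A.cov x).imp fun _ h => h.1) fun _ _ _ => at_an A

/-- the curve as a manifold charted on `Cm 1` -/
@[reducible] def csA : ChartedSpace (Cm 1) C := (glA A).cs

theorem mfA : @IsManifold ℂ _ (Cm 1) _ _ (Cm 1) _ 𝓘(ℂ, Cm 1) ω C _ (csA A) := (glA A).mf

theorem hol_e {i : Fin A.N} {x : C} (hi : x ∈ (A.e i).source) :
    letI := csA A; Hol 1 (A.e i) x :=
  letI := csA A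
  haveI := mfA A
  (((glA A).holΦ (i := i) ⟨hi, trivial⟩).hol (hol_crd 0 _)).congr (.of_forall fun _ => rfl)

theorem hol_e_symm {i : Fin A.N} {v : Cm 1} (hi : v 0 ∈ (A.e i).target) :
    letI := csA A; HolA 1 1 (fun v : Cm 1 => (A.e i).symm (v 0)) v :=
  (glA A).hol_symm (i := i) ⟨trivial, hi⟩

/-- a function on the curve is holomorphic if it is so in a chart -/
theorem hol_iff {i : Fin A.N} {x : C} (hi : x ∈ (A.e i).source) {f : C → ℂ} :
    letI := csA A; Hol 1 f x ↔ AnalyticAt ℂ (fun z => f ((A.e i).symm z)) (A.e i x) := by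
  letI := csA A
  haveI := mfA A
  refine ⟨fun h => ?_, fun h => ((AnV.cmp (F := A.e i) (fun e he => hol_e A hi e he) h) · · |>.congr ?_)⟩
  · have h1 := hol_self.1 ((hol_e_symm A (v := c1 (A.e i x)) ((A.e i).map_source hi)).hol
      (a := f) (by rw [c1_apply, (A.e i).left_inv hi]; exact h))
    exact h1.fun_comp (f := c1) (c1.analyticAt _)
  · exact (at_ev ‹_› ((A.e i).open_source.eventually_mem hi)).mono fun w hw =>
      congrArg f ((A.e i).left_inv hw)

end curve

end Vale.Agent.P275MK
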