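import Vale.Agent.P275MK.Glue
import Vale.Agent.P275MC.Hol

/-!
P275 (helper22): bundles with constant transitions, complex structure, maps.
-/

set_option linter.all false

open scoped Manifold ContDiff Topology
open Set Filter Topology Function
open Vale.Agent.P272.K (Cm Chart At)
open Vale.Agent.P277Z (Hol at_chart)
open Vale.Agent.P281Z Vale.Agent.P275RG Vale.Agent.P275MC
open Vale.Agent.P281Z.Hg (Smo)

noncomputable section

namespace Vale.Agent.P275MK

/-- local trivialisations with constant transitions -/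
structure Tv {ι B : Type} [TopologicalSpace B] (V : ι → Set B) (T M : Type) [TopologicalSpace T]
    [TopologicalSpace M] where
  p : T → B
  q : ι → T → M
  s : ι → B × M → T
  t : ι → ι → M → M
  opn : ∀ i, IsOpen (V i)
  cov : ∀ x, ∃ i, x ∈ V i
  cp : Continuous p
  cq : ∀ i z, p z ∈ V i → ContinuousAt (q i) z
  cs : ∀ i y, y.1 ∈ V i → ContinuousAt (s i) y
  spq : ∀ i z, p z ∈ V i → s i (p z, q i z) = z
  ps : ∀ i y, y.1 ∈ V i → p (s i y) = y.1
  qs : ∀ i y, y.1 ∈ V i → q i (s i y) = y.2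
  tr : ∀ i j z, p z ∈ V i → p z ∈ V j → q i z = t i j (q j z)

namespace Tv

variable {ι ι' B B' T T' M M' : Type} [TopologicalSpace B] [TopologicalSpace T] [TopologicalSpace M]
  [TopologicalSpace B'] [TopologicalSpace T'] [TopologicalSpace M'] {V : ι → Set B}
  {V' : ι' → Set B'} (F : Tv V T M) (F' : Tv V' T' M') {i j k : ι} {x : B} {z z' : T}

theorem t_eq (hi : x ∈ V i) (hj : x ∈ V j) (y : M) : F.t i j y = F.q i (F.s j (x, y)) := by
  have h := F.ps j (x, y) hj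
  rw [F.tr i j _ (h ▸ hi) (h ▸ hj), F.qs j (x, y) hj]

theorem t_self (hi : x ∈ V i) (y : M) : F.t i i y = y := (F.t_eq hi hi y).trans (F.qs i (x, y) hi)

theorem t_t (hi : x ∈ V i) (hj : x ∈ V j) (hk : x ∈ V k) (y : M) :
    F.t i j (F.t j k y) = F.t i k y := by
  have h := F.ps k (x, y) hk
  rw [F.t_eq hj hk, F.t_eq hi hk, F.tr i j _ (h ▸ hi) (h ▸ hj)]

theorem s_t (hi : x ∈ V i) (hj : x ∈ V j) (y : M) : F.s i (x, F.t i j y) = F.s j (x, y) := by
  have h := F.ps j (x, y) hj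
  have h1 := F.spq i (F.s j (x, y)) (h.symm ▸ hi)
  rwa [h, ← F.t_eq hi hj] at h1

theorem t_cont (hi : x ∈ V i) (hj : x ∈ V j) : Continuous (F.t i j) := by
  rw [funext (F.t_eq hi hj)]
  exact continuous_iff_continuousAt.2 fun y => (F.cq i _ ((F.ps j (x, y) hj).symm ▸ hi)).comp
    ((F.cs j (x, y) hj).comp (f := fun y => (x, y)) (by fun_prop))

/-- the transition homeomorphism -/
def th (hi : x ∈ V i) (hj : x ∈ V j) : M ≃ₜ M where
  toFun := F.t i j
  invFun := F.t j i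
  left_inv y := (F.t_t hj hi hj y).trans (F.t_self hj y)
  right_inv y := (F.t_t hi hj hi y).trans (F.t_self hi y)
  continuous_toFun := F.t_cont hi hj
  continuous_invFun := F.t_cont hj hi

theorem t_proper (hi : x ∈ V i) (hj : x ∈ V j) : IsProperMap (F.t i j) := (F.th hi hj).isProperMap

theorem ext' (hi : F.p z ∈ V i) (h : F.p z = F.p z') (h' : F.q i z = F.q i z') : z = z' := by
  rw [← F.spq i z hi, h, h', F.spq i z' (h ▸ hi)]

theorem near (hi : F.p z ∈ V i) : ∀ᶠ w in 𝓝 z, F.p w ∈ V i :=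
  F.cp.continuousAt.eventually ((F.opn i).eventually_mem hi)

include F in
theorem near' {y : B × M} (hi : y.1 ∈ V i) : ∀ᶠ w : B × M in 𝓝 y, w.1 ∈ V i :=
  continuousAt_fst.eventually ((F.opn i).eventually_mem hi)

theorem tendsto {α : Type} {l : Filter α} {f : α → T} {y : B × M} (hi : y.1 ∈ V i)
    (h : Tendsto (fun a => F.p (f a)) l (𝓝 y.1)) (h' : Tendsto (fun a => F.q i (f a)) l (𝓝 y.2)) :
    Tendsto f l (𝓝 (F.s i y)) :=
  ((F.cs i y hi).tendsto.comp (h.prodMk_nhds h')).congr'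
    ((h.eventually ((F.opn i).eventually_mem hi)).mono fun _ => F.spq i _)

theorem tendsto' {α : Type} {l : Filter α} {f : α → T} (hi : F.p z ∈ V i)
    (h : Tendsto (fun a => F.p (f a)) l (𝓝 (F.p z)))
    (h' : Tendsto (fun a => F.q i (f a)) l (𝓝 (F.q i z))) : Tendsto f l (𝓝 z) :=
  F.spq i z hi ▸ F.tendsto (y := (F.p z, F.q i z)) hi h h'

/-- the trivialisation -/
def Φ (i : ι) : OpenPartialHomeomorph T (B × M) where
  toFun z := (F.p z, F.q i z)
  invFun := F.s i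
  source := F.p ⁻¹' V i
  target := Prod.fst ⁻¹' V i
  map_source' _ h := h
  map_target' y h := show F.p _ ∈ V i from (F.ps i y h).symm ▸ h
  left_inv' := F.spq i
  right_inv' y h := Prod.ext (F.ps i y h) (F.qs i y h)
  open_source := (F.opn i).preimage F.cp
  open_target := (F.opn i).preimage continuous_fst
  continuousOn_toFun z h := (F.cp.continuousAt.prodMk (F.cq i z h)).continuousWithinAt
  continuousOn_invFun y h := (F.cs i y h).continuousWithinAt

include F in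
theorem t2 [T2Space B] [T2Space M] : T2Space T := t2_iff_nhds.2 fun {z z'} h => by
  obtain ⟨i, hi⟩ := F.cov (F.p z)
  have h1 : F.p z = F.p z' := tendsto_nhds_unique (F.cp.continuousAt.mono_left inf_le_left)
    (F.cp.continuousAt.mono_left inf_le_right)
  exact F.ext' hi h1 (tendsto_nhds_unique ((F.cq i z hi).mono_left inf_le_left)
    ((F.cq i z' (h1 ▸ hi)).mono_left inf_le_right))

include F in
theorem sc [SecondCountableTopology B] [SecondCountableTopology M] : SecondCountableTopology T := by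
  obtain ⟨S, h1, h2⟩ := TopologicalSpace.isOpen_iUnion_countable V F.opn
  haveI := h1.to_subtype
  haveI := fun i : S => (F.Φ i).secondCountableTopology_source
  refine TopologicalSpace.secondCountableTopology_of_countable_cover
    (fun i : S => (F.Φ i).open_source) (eq_univ_of_forall fun z => ?_)
  obtain ⟨i, hi, h⟩ := mem_iUnion₂.1 (h2.ge (mem_iUnion.2 (F.cov (F.p z))))
  exact mem_iUnion.2 ⟨⟨i, hi⟩, h⟩

theorem isOpenMap : IsOpenMap F.p := isOpenMap_iff_nhds_le.2 fun z => by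
  obtain ⟨i, hi⟩ := F.cov (F.p z)
  have h1 : Tendsto (fun x => F.s i (x, F.q i z)) (𝓝 (F.p z)) (𝓝 z) := by
    have := (F.cs i (F.p z, F.q i z) hi).comp (f := fun x => (x, F.q i z)) (x := F.p z) (by fun_prop)
    rwa [ContinuousAt, comp_apply, F.spq i z hi] at this
  exact tendsto_id'.1 ((tendsto_map.comp h1).congr'
    (((F.opn i).eventually_mem hi).mono fun x hx => F.ps i (x, _) hx))

theorem onto [Nonempty M] : Surjective F.p := fun x =>
  let ⟨i, hi⟩ := F.cov x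
  ⟨_, F.ps i (x, Classical.arbitrary M) hi⟩

/-- `f` covers `g` and is locally given by maps of the fibres which satisfy `P` -/
structure Lc (f : T' → T) (g : B' → B) (P : (M' → M) → Prop) : Prop where
  p : ∀ z, F.p (f z) = g (F'.p z)
  q : ∀ x, ∃ i' i φ, x ∈ V' i' ∧ g x ∈ V i ∧ P φ ∧
    ∀ᶠ y in 𝓝 x, ∀ z, F'.p z = y → F.q i (f z) = φ (F'.q i' z)

namespace Lc

variable {F F'} {f : T' → T} {g : B' → B} {P P' : (M' → M) → Prop}

theorem of_map (r : ι' → ι) (φ : ι' → M' → M) (h1 : ∀ z, F.p (f z) = g (F'.p z))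
    (h2 : ∀ i, ∀ x ∈ V' i, g x ∈ V (r i)) (h3 : ∀ i, (V' i).Nonempty → P (φ i))
    (h4 : ∀ i z, F'.p z ∈ V' i → F.q (r i) (f z) = φ i (F'.q i z)) : F.Lc F' f g P :=
  ⟨h1, fun x => let ⟨i, hi⟩ := F'.cov x
    ⟨i, r i, φ i, hi, h2 i x hi, h3 i ⟨x, hi⟩,
      ((F'.opn i).eventually_mem hi).mono fun _ hy z e => h4 i z (e ▸ hy)⟩⟩

variable (h : F.Lc F' f g P)
include h

theorem mono (k : ∀ φ, P φ → P' φ) : F.Lc F' f g P' :=
  ⟨h.p, fun x => let ⟨i', i, φ, a, b, c, d⟩ := h.q x; ⟨i', i, φ, a, b, k φ c, d⟩⟩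

theorem loc (z : T') : ∃ i' i φ, F'.p z ∈ V' i' ∧ F.p (f z) ∈ V i ∧ P φ ∧
    ∀ᶠ w in 𝓝 z, F.q i (f w) = φ (F'.q i' w) :=
  let ⟨i', i, φ, a, b, c, d⟩ := h.q (F'.p z)
  ⟨i', i, φ, a, h.p z ▸ b, c, (F'.cp.continuousAt.eventually d).mono fun w k => k w rfl⟩

theorem eq (hg : Continuous g) (z : T') : ∃ i' i φ, F'.p z ∈ V' i' ∧ g (F'.p z) ∈ V i ∧ P φ ∧
    ∀ᶠ w in 𝓝 z, F.s i (g (F'.p w), φ (F'.q i' w)) = f w := by
  obtain ⟨i', i, φ, a, b, c, d⟩ := h.loc z
  rw [h.p] at b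
  refine ⟨i', i, φ, a, b, c, ?_⟩
  filter_upwards [d, (hg.comp F'.cp).continuousAt.eventually ((F.opn i).eventually_mem b)]
    with w k1 k2
  rw [← k1, ← h.p, F.spq i _ ((h.p w).symm ▸ k2)]

theorem cont (hg : Continuous g) (hP : ∀ φ, P φ → Continuous φ) : Continuous f :=
  continuous_iff_continuousAt.2 fun z =>
    let ⟨i', i, φ, a, b, c, d⟩ := h.eq hg z
    ((F.cs i (_, _) b).comp (f := fun w => (g (F'.p w), φ (F'.q i' w)))
      ((hg.comp F'.cp).continuousAt.prodMk ((hP φ c).continuousAt.comp (F'.cq i' z a)))).congr d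

theorem inj (hg : Injective g) (hP : ∀ φ, P φ → Injective φ) : Injective f := fun z z' e => by
  obtain ⟨i', i, φ, a, -, c, d⟩ := h.q (F'.p z)
  have h1 : F'.p z = F'.p z' := hg (by rw [← h.p, e, h.p])
  exact F'.ext' a h1 (hP φ c (by rw [← d.self_of_nhds z rfl, e, d.self_of_nhds z' h1.symm]))

theorem onto (hg : Surjective g) (hP : ∀ φ, P φ → Surjective φ) : Surjective f := fun z => by
  obtain ⟨x, hx⟩ := hg (F.p z)
  obtain ⟨i', i, φ, a, b, c, d⟩ := h.q x
  obtain ⟨y, hy⟩ := hP φ c (F.q i z)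
  have h1 := F'.ps i' (x, y) a
  refine ⟨F'.s i' (x, y), (F.ext' (hx ▸ b) ?_ ?_).symm⟩
  · rw [h.p, h1, hx]
  · rw [d.self_of_nhds _ h1, F'.qs i' (x, y) a, hy]

theorem proper (hg : IsProperMap g) (hP : ∀ φ, P φ → IsProperMap φ) : IsProperMap f := by
  have hc := h.cont hg.continuous fun φ k => (hP φ k).continuous
  refine isProperMap_iff_ultrafilter.2 ⟨hc, fun U y hy => ?_⟩
  obtain ⟨x, e, hx⟩ := hg.ultrafilter_le_nhds_of_tendsto (𝒰 := U.map F'.p) (y := F.p y)
    (tendsto_map' ((F.cp.continuousAt.tendsto.comp hy).congr h.p))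
  obtain ⟨i', i, φ, a, b, c, d⟩ := h.q x
  obtain ⟨u, e', hu⟩ := (hP φ c).ultrafilter_le_nhds_of_tendsto (𝒰 := U.map (F'.q i'))
    (y := F.q i y) (tendsto_map' (((F.cq i y (e ▸ b)).tendsto.comp hy).congr'
      ((Tendsto.eventually (f := F'.p) hx d).mono fun w k => k w rfl)))
  have h1 := F'.ps i' (x, u) a
  refine ⟨F'.s i' (x, u), (F.ext' (e ▸ b) ?_ ?_).symm, F'.tendsto (f := id) a hx hu⟩
  · rw [h.p, h1, e]
  · rw [d.self_of_nhds _ h1, F'.qs i' (x, u) a, e']

theorem ind (hg : IsInducing g) (hP : ∀ φ, P φ → IsInducing φ) : IsInducing f := by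
  have hc := h.cont hg.continuous fun φ k => (hP φ k).continuous
  refine isInducing_iff_nhds.2 fun z => le_antisymm (hc.tendsto z).le_comap ?_
  obtain ⟨i', i, φ, a, b, c, d⟩ := h.q (F'.p z)
  have h1 : Tendsto F'.p (comap f (𝓝 (f z))) (𝓝 (F'.p z)) := hg.tendsto_nhds_iff.2
    (h.p z ▸ (F.cp.continuousAt.tendsto.comp tendsto_comap).congr h.p)
  refine F'.tendsto' (f := id) a h1 ((hP φ c).tendsto_nhds_iff.2 ?_)
  rw [← d.self_of_nhds z rfl]
  exact ((F.cq i _ ((h.p z).symm ▸ b)).tendsto.comp tendsto_comap).congr'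
    ((h1.eventually d).mono fun w k => k w rfl)

theorem emb (hg : IsEmbedding g) (hP : ∀ φ, P φ → IsEmbedding φ) : IsEmbedding f :=
  ⟨h.ind hg.isInducing fun φ k => (hP φ k).isInducing, h.inj hg.injective fun φ k => (hP φ k).injective⟩

theorem cemb (hg : IsClosedEmbedding g) (hP : ∀ φ, P φ → IsClosedEmbedding φ) :
    IsClosedEmbedding f :=
  have h1 := h.proper hg.isProperMap fun φ k => (hP φ k).isProperMap
  .of_continuous_injective_isClosedMap h1.continuous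
    (h.inj hg.injective fun φ k => (hP φ k).injective) h1.isClosedMap

theorem isOpenMap (hc : Continuous g) (hg : IsOpenMap g) (hP : ∀ φ, P φ → IsOpenMap φ) :
    IsOpenMap f := isOpenMap_iff_nhds_le.2 fun z => by
  obtain ⟨i', i, φ, a, b, c, d⟩ := h.q (F'.p z)
  have b' : F.p (f z) ∈ V i := (h.p z).symm ▸ b
  have h0 : map (F.s i) (𝓝 (F.p (f z), F.q i (f z))) = 𝓝 (F.s i (_, _)) :=
    (F.Φ i).symm.map_nhds_eq (x := (_, _)) b'
  rw [← F.spq i _ b', ← h0, h.p, d.self_of_nhds z rfl]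
  have h1 := (F'.Φ i').map_nhds_eq (x := z) a
  refine (map_mono ((hg.prodMap (hP φ c)).nhds_le (F'.Φ i' z))).trans ?_
  rw [← h1, map_map, map_map]
  refine (map_congr ?_).le
  filter_upwards [F'.cp.continuousAt.eventually d,
    (hc.comp F'.cp).continuousAt.eventually ((F.opn i).eventually_mem b)] with w k1 k2
  exact (congrArg₂ (fun u v => F.s i (u, v)) (h.p w).symm (k1 w rfl).symm).trans
    (F.spq i _ ((h.p w).symm ▸ k2))

end Lc

section man

variable {N N' b b' m m' : ℕ} [ChartedSpace (Cm b) B] [IsManifold 𝓘(ℂ, Cm b) ω B]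
  [ChartedSpace (Cm m) M] [IsManifold 𝓘(ℂ, Cm m) ω M] [ChartedSpace (Cm b') B']
  [IsManifold 𝓘(ℂ, Cm b') ω B'] [ChartedSpace (Cm m') M'] [IsManifold 𝓘(ℂ, Cm m') ω M']

variable (N b m) in
/-- the trivialisations are holomorphic -/
structure Ho [ChartedSpace (Cm N) T] : Prop where
  p : HolM N b F.p
  q : ∀ i z, F.p z ∈ V i → HolA N m (F.q i) z
  s : ∀ i y, y.1 ∈ V i → HolA (b + m) N (F.s i) y

variable (N b m) in
/-- the trivialisations are smooth -/
structure Sm [ChartedSpace (Cm N) T] : Prop where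
  p : Smo N b F.p
  q : ∀ i z, F.p z ∈ V i → SmA N m (F.q i) z
  s : ∀ i y, y.1 ∈ V i → SmA (b + m) N (F.s i) y

variable (b) (ht : ∀ i j, (V i ∩ V j).Nonempty → HolM m m (F.t i j))

/-- the gluing data -/
abbrev gl : Gl (b + m) T (B × M) where
  ι := ι
  Φ := F.Φ
  cov z := F.cov (F.p z)
  hol i j z hi hj := (holA_mk (hol_fst.at _) (((ht j i ⟨_, hj, hi⟩).comp hol_snd).at _)).cng
    ((F.near' (y := F.Φ i z) hi).and (F.near' (y := F.Φ i z) hj) |>.mono fun w k =>
      Prod.ext (F.ps i w k.1).symm (F.t_eq k.2 k.1 w.2))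

/-- the complex structure of the total space -/
@[reducible] def ch : ChartedSpace (Cm (b + m)) T := (F.gl b ht).cs

theorem mf : @IsManifold ℂ _ _ _ _ _ _ 𝓘(ℂ, Cm (b + m)) ω T _ (F.ch b ht) := (F.gl b ht).mf

theorem ho : letI := F.ch b ht; F.Ho (b + m) b m :=
  letI := F.ch b ht
  ⟨fun z => let ⟨i, hi⟩ := F.cov (F.p z)
    HolA.cmp (g := Prod.fst) (hol_fst.at _) ((F.gl b ht).holΦ (i := i) hi),
    fun i z hi => HolA.cmp (g := Prod.snd) (hol_snd.at _) ((F.gl b ht).holΦ (i := i) hi),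
    fun i y hi => (F.gl b ht).hol_symm (i := i) hi⟩

omit ht

variable {F F' b} [ChartedSpace (Cm N) T] [IsManifold 𝓘(ℂ, Cm N) ω T] [ChartedSpace (Cm N') T']
  [IsManifold 𝓘(ℂ, Cm N') ω T'] {f : T' → T} {g : B' → B} {P : (M' → M) → Prop}

theorem Ho.sm (H : F.Ho N b m) : F.Sm N b m :=
  ⟨smo_of_hol H.p, fun i z h => smA_of_hol (H.q i z h), fun i y h => smA_of_hol (H.s i y h)⟩

theorem Ho.t (H : F.Ho N b m) (hi : x ∈ V i) (hj : x ∈ V j) : HolM m m (F.t i j) := by
  rw [funext (F.t_eq hi hj)]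
  exact fun y => (H.q i _ ((F.ps j (x, y) hj).symm ▸ hi)).cmp
    ((H.s j (x, y) hj).cmp (f := fun y => (x, y)) ((holM_mk (holM_const x) holM_id).at y))

theorem Ho.imm (H : F.Ho N b m) (hi : F.p z ∈ V i) :
    Imm N (b + m) (fun z => (F.p z, F.q i z)) z :=
  .of_comp (H.s i (_, _) hi) (holA_mk (H.p.at z) (H.q i z hi))
    ((imm_id z).cng ((F.near hi).mono fun w k => (F.spq i w k).symm))

theorem Ho.imm_s (H : F.Ho N b m) {y : B × M} (hi : y.1 ∈ V i) : Imm (b + m) N (F.s i) y :=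
  .of_comp (g := fun z => (F.p z, F.q i z))
    (holA_mk (H.p.at _) (H.q i _ ((F.ps i y hi).symm ▸ hi))) (H.s i y hi)
    ((imm_id y).cng ((F.near' hi).mono fun w k => (Prod.ext (F.ps i w k) (F.qs i w k)).symm))

theorem Ho.sbm (H : F.Ho N b m) (z : T) : Sbm N b F.p z := by
  obtain ⟨i, hi⟩ := F.cov (F.p z)
  have h1 := Sbm.of_comp (f := fun x => F.s i (x, F.q i z)) (x := F.p z) (H.p.at _)
    ((H.s i (_, _) hi).cmp (f := fun x => (x, F.q i z)) ((holM_mk holM_id (holM_const _)).at _))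
    ((sbm_id _).cng (((F.opn i).eventually_mem hi).mono fun x k => (F.ps i (x, _) k).symm))
  rwa [F.spq i z hi] at h1

/-- a map to the total space is holomorphic if its components are -/
theorem Ho.holA (H : F.Ho N b m) {w : T'} (hi : F.p (f w) ∈ V i)
    (h1 : HolA N' b (fun w => F.p (f w)) w) (h2 : HolA N' m (fun w => F.q i (f w)) w) :
    HolA N' N f w :=
  (HolA.cmp (g := F.s i) (f := fun w => (F.p (f w), F.q i (f w))) (H.s i _ hi) (holA_mk h1 h2)).cng
    ((h1.cont.eventually ((F.opn i).eventually_mem hi)).mono fun _ => F.spq i _)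

/-- a map from the total space is holomorphic if it is so in the trivialisations -/
theorem Ho.holA' (H : F.Ho N b m) {f : T → T'} (hi : F.p z ∈ V i)
    (h : HolA (b + m) N' (fun y => f (F.s i y)) (F.p z, F.q i z)) : HolA N N' f z :=
  (HolA.cmp (f := fun w => (F.p w, F.q i w)) h (holA_mk (H.p.at z) (H.q i z hi))).cng
    ((F.near hi).mono fun w k => congrArg f (F.spq i w k))

theorem Lc.hol (h : F.Lc F' f g P) (H : F.Ho N b m) (H' : F'.Ho N' b' m') (hg : HolM b' b g)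
    (hP : ∀ φ, P φ → HolM m' m φ) : HolM N' N f := fun z =>
  let ⟨i', i, φ, a, b, c, d⟩ := h.eq hg.cont z
  (HolA.cmp (g := F.s i) (f := fun w => (g (F'.p w), φ (F'.q i' w))) (H.s i _ b)
    (holA_mk ((hg.comp H'.p).at z) (((hP φ c).at _).cmp (H'.q i' z a)))).cng d

theorem Lc.imm (h : F.Lc F' f g P) (H : F.Ho N b m) (H' : F'.Ho N' b' m') (hg : HolM b' b g)
    (hg' : ∀ x, Imm b' b g x) (hP : ∀ φ, P φ → HolM m' m φ ∧ ∀ y, Imm m' m φ y) (z : T') :
    Imm N' N f z :=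
  let ⟨i', i, φ, a, b, c, d⟩ := h.eq hg.cont z
  have h1 := holA_mk (H'.p.at z) (H'.q i' z a)
  have h2 := (holM_mk (hg.comp hol_fst) ((hP φ c).1.comp hol_snd)).at (F'.p z, F'.q i' z)
  (Imm.comp (g := F.s i) (f := fun w => (g (F'.p w), φ (F'.q i' w))) (H.s i _ b)
    (HolA.cmp (f := fun w => (F'.p w, F'.q i' w)) h2 h1) (H.imm_s b)
    (Imm.comp (f := fun w => (F'.p w, F'.q i' w)) h2 h1 (imm_prodMap (hg.at _) ((hP φ c).1.at _) (hg' _) ((hP φ c).2 _)) (H'.imm a))).cng d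

theorem Lc.embH (h : F.Lc F' f g P) (H : F.Ho N b m) (H' : F'.Ho N' b' m') {S : Set B}
    (hg : Emb b' b g S) (hP : ∀ φ, P φ → ∃ Z, Emb m' m φ Z) : Emb N' N f (range f) :=
  ⟨h.hol H H' hg.hol fun φ k => (hP φ k).elim fun _ => Emb.hol,
    h.inj hg.inj fun φ k => (hP φ k).elim fun _ => Emb.inj,
    h.imm H H' hg.hol hg.imm fun φ k => (hP φ k).elim fun _ e => ⟨e.hol, e.imm⟩, rfl⟩

end man

end Tv

end Vale.Agent.P275MK
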